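import Vale.Agent.P362.Main

namespace Vale.Agent.Results.P362.Four

open Vale.Agent.P362

theorem result : alphaTot = 4 ∧ IsLeast Admissible 4 := ⟨alphaTot_eq, isLeast_four⟩

end Vale.Agent.Results.P362.Four
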